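import Vale.Agent.P330.H838.QL
import Vale.Agent.P330.W.H912.Fmt
import Vale.Agent.P330.H855.Asm

/-!
# Polylogarithmic code lengths

`SB f`: the codes of the values of `f I i` are polylogarithmic in the length of the instance `I`,
uniformly in `i`.  `VB f`: the same for the values of numbers.  `exists_m`: a polylogarithmic number, computable in polynomial time, above the lengths of the
blocks and of the public words.
-/

set_option autoImplicit false

namespace Vale.Agent.P330.H847

open Vale.Agent.Lib.PolyTime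
open H838 (QLin QLog len lg)

/-- The codes of the values are polylogarithmic. -/
def SB {ι : EndOfLine → Type*} {α : Type*} [Enc α] (f : (I : EndOfLine) → ι I → α) : Prop :=
  ∃ B : EndOfLine → ℕ, QLog B ∧ ∀ I i, esize (f I i) ≤ B I

/-- The values are polylogarithmic. -/
def VB {ι : EndOfLine → Type*} (f : ∀ I, ι I → ℕ) : Prop :=
  ∃ B : EndOfLine → ℕ, QLog B ∧ ∀ I i, f I i ≤ B I

/-! ### Numbers -/

theorem QLog.max {f g : EndOfLine → ℕ} (hf : QLog f) (hg : QLog g) :
    QLog fun I => max (f I) (g I) :=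
  (hf.add hg).mono fun _ => max_le (Nat.le_add_right _ _) (Nat.le_add_left _ _)

theorem QLog.sum {ι : Type*} (s : Finset ι) {f : ι → EndOfLine → ℕ} (hf : ∀ i, QLog (f i)) :
    QLog fun I => ∑ i ∈ s, f i I := by
  classical
  induction s using Finset.induction_on with
  | empty => simpa using QLog.const 0
  | insert i s hi ih =>
    refine ((hf i).add ih).mono fun I => ?_
    rw [Finset.sum_insert hi]

/-- A polynomial bound in polylogarithmic numbers. -/
theorem QLog.poly {f : EndOfLine → ℕ} (hf : QLog f) {g : EndOfLine → ℕ} (C c : ℕ)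
    (h : ∀ I, g I ≤ C * (f I + 1) ^ c) : QLog g :=
  ((QLog.const C).mul ((hf.add (QLog.const 1)).pow c)).mono h

section

variable {ι : EndOfLine → Type*} {α β : Type*} [Enc α] [Enc β]

theorem VB.of {f : EndOfLine → ℕ} (hf : QLog f) : VB (ι := ι) fun I _ => f I :=
  ⟨f, hf, fun _ _ => le_rfl⟩

theorem VB.mono {f g : ∀ I, ι I → ℕ} (hf : VB f) (h : ∀ I i, g I i ≤ f I i) : VB g := by
  obtain ⟨B, hB, h'⟩ := hf
  exact ⟨B, hB, fun I i => (h I i).trans (h' I i)⟩

theorem VB.le {f : EndOfLine → ℕ} (hf : QLog f) {g : ∀ I, ι I → ℕ} (h : ∀ I i, g I i ≤ f I) :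
    VB g := ⟨f, hf, h⟩

theorem VB.lt {f : EndOfLine → ℕ} (hf : QLog f) {g : ∀ I, ι I → ℕ} (h : ∀ I i, g I i < f I) :
    VB g := ⟨f, hf, fun I i => (h I i).le⟩

theorem VB.const (c : ℕ) : VB (ι := ι) fun _ _ => c := VB.of (QLog.const c)

theorem VB.add {f g : ∀ I, ι I → ℕ} (hf : VB f) (hg : VB g) : VB fun I i => f I i + g I i := by
  obtain ⟨B, hB, h⟩ := hf
  obtain ⟨C, hC, h'⟩ := hg
  exact ⟨_, hB.add hC, fun I i => add_le_add (h I i) (h' I i)⟩

theorem VB.mul {f g : ∀ I, ι I → ℕ} (hf : VB f) (hg : VB g) : VB fun I i => f I i * g I i := by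
  obtain ⟨B, hB, h⟩ := hf
  obtain ⟨C, hC, h'⟩ := hg
  exact ⟨_, hB.mul hC, fun I i => Nat.mul_le_mul (h I i) (h' I i)⟩

theorem VB.pow {f : ∀ I, ι I → ℕ} (hf : VB f) (n : ℕ) : VB fun I i => f I i ^ n := by
  obtain ⟨B, hB, h⟩ := hf
  exact ⟨_, hB.pow n, fun I i => Nat.pow_le_pow_left (h I i) n⟩

/-- Restriction to other indices. -/
theorem VB.comp {κ : EndOfLine → Type*} {f : ∀ I, ι I → ℕ} (hf : VB f) (u : ∀ I, κ I → ι I) :
    VB fun I i => f I (u I i) := by
  obtain ⟨B, hB, h⟩ := hf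
  exact ⟨B, hB, fun I i => h I _⟩

/-- The value is below a polylogarithmic number. -/
theorem VB.exists {f : ∀ I, ι I → ℕ} (hf : VB f) : ∃ k : ℕ, ∀ I i, f I i ≤ k * lg I ^ k := by
  obtain ⟨B, ⟨k, hk⟩, h⟩ := hf
  exact ⟨k, fun I i => (h I i).trans (hk I)⟩

/-! ### Codes -/

theorem SB.mono {f : ∀ I, ι I → α} {g : ∀ I, ι I → β} (hf : SB f)
    (h : ∀ I i, esize (g I i) ≤ esize (f I i)) : SB g := by
  obtain ⟨B, hB, h'⟩ := hf
  exact ⟨B, hB, fun I i => (h I i).trans (h' I i)⟩

theorem SB.vb {f : ∀ I, ι I → α} (hf : SB f) : VB fun I i => esize (f I i) := hf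

theorem SB.of_vb {f : ∀ I, ι I → α} {g : ∀ I, ι I → ℕ} (hg : VB g)
    (h : ∀ I i, esize (f I i) ≤ g I i) : SB f := hg.mono h

theorem SB.const (c : α) : SB (ι := ι) fun _ _ => c := ⟨fun _ => esize c, QLog.const _, fun _ _ => le_rfl⟩

theorem SB.of {f : EndOfLine → α} (hf : QLog fun I => esize (f I)) : SB (ι := ι) fun I _ => f I :=
  ⟨_, hf, fun _ _ => le_rfl⟩

theorem SB.comp {κ : EndOfLine → Type*} {f : ∀ I, ι I → α} (hf : SB f) (u : ∀ I, κ I → ι I) :
    SB fun I i => f I (u I i) := by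
  obtain ⟨B, hB, h⟩ := hf
  exact ⟨B, hB, fun I i => h I _⟩

theorem SB.nat {f : ∀ I, ι I → ℕ} (hf : VB f) : SB f := hf.mono fun _ _ => esize_nat_le_self _

/-- Numbers with polylogarithmically many digits. -/
theorem SB.nat_pow {f : ∀ I, ι I → ℕ} {B : EndOfLine → ℕ} (hB : QLog B)
    (h : ∀ I i, f I i < 2 ^ B I) : SB f := ⟨B, hB, fun I i => esize_nat_le (h I i)⟩

/-- Quasi-linear numbers. -/
theorem SB.nat_lin {f : ∀ I, ι I → ℕ} {B : EndOfLine → ℕ} (hB : QLin B)
    (h : ∀ I i, f I i ≤ B I) : SB f := by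
  refine ⟨fun I => Nat.size (B I), hB.size, fun I i => ?_⟩
  exact (esize_nat_mono (h I i)).trans (esize_nat _).le

theorem SB.un {f : ∀ I, ι I → Un} (hf : VB fun I i => (f I i).v) : SB f :=
  hf.mono fun _ _ => (esize_un _).le

theorem SB.bool (f : ∀ I, ι I → Bool) : SB f := ⟨fun _ => 1, QLog.const 1, fun _ _ => (esize_bool _).le⟩

theorem SB.pair {f : ∀ I, ι I → α} {g : ∀ I, ι I → β} (hf : SB f) (hg : SB g) :
    SB fun I i => (f I i, g I i) := by
  obtain ⟨B, hB, h⟩ := hf
  obtain ⟨C, hC, h'⟩ := hg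
  refine ⟨fun I => 2 * B I + C I + 1,
    (((QLog.const 2).mul hB).add hC).add (QLog.const 1), fun I i => ?_⟩
  have h1 := h I i
  have h2 := h' I i
  show esize (f I i, g I i) ≤ 2 * B I + C I + 1
  rw [esize_pair]
  omega

theorem SB.fst {f : ∀ I, ι I → α × β} (hf : SB f) : SB fun I i => (f I i).1 :=
  hf.mono fun _ _ => esize_fst_le _

theorem SB.snd {f : ∀ I, ι I → α × β} (hf : SB f) : SB fun I i => (f I i).2 :=
  hf.mono fun _ _ => esize_snd_le _

/-- Lists of polylogarithmic length whose elements have polylogarithmic codes. -/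
theorem SB.list {f : ∀ I, ι I → List α} (hl : VB fun I i => (f I i).length)
    {B : EndOfLine → ℕ} (hB : QLog B) (h : ∀ I i, ∀ x ∈ f I i, esize x ≤ B I) : SB f := by
  obtain ⟨L, hL, hL'⟩ := hl
  refine ⟨fun I => L I * (2 * B I + 1),
    hL.mul (((QLog.const 2).mul hB).add (QLog.const 1)), fun I i => ?_⟩
  exact (esize_list_le (h I i)).trans (Nat.mul_le_mul_right _ (hL' I i))

/-- The same, with the elements as values of a bounded function. -/
theorem SB.list' {κ : EndOfLine → Type*} {f : ∀ I, ι I → List α}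
    (hl : VB fun I i => (f I i).length) {g : ∀ I, κ I → α} (hg : SB g)
    (h : ∀ I i, ∀ x ∈ f I i, ∃ k, x = g I k) : SB f := by
  obtain ⟨B, hB, hg'⟩ := hg
  refine SB.list hl hB fun I i x hx => ?_
  obtain ⟨k, rfl⟩ := h I i x hx
  exact hg' I k

theorem SB.length {f : ∀ I, ι I → List α} (hf : SB f) : VB fun I i => (f I i).length := by
  refine hf.vb.mono fun I i => ?_
  generalize f I i = l
  induction l with
  | nil => simp
  | cons x l ih => rw [List.length_cons, esize_list_cons]; omega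

theorem SB.append {f g : ∀ I, ι I → List α} (hf : SB f) (hg : SB g) :
    SB fun I i => f I i ++ g I i := by
  refine (hf.vb.add hg.vb).mono fun I i => ?_
  rw [esize_append]

theorem SB.cons {f : ∀ I, ι I → α} {g : ∀ I, ι I → List α} (hf : SB f) (hg : SB g) :
    SB fun I i => f I i :: g I i := by
  refine ((((VB.const 2).mul hf.vb).add hg.vb).add (VB.const 1)).mono fun I i => ?_
  rw [esize_list_cons]

/-- Lists of bits. -/
theorem SB.bits {f : ∀ I, ι I → List Bool} (h : VB fun I i => (f I i).length) : SB f :=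
  SB.list h (QLog.const 1) fun _ _ x _ => (esize_bool x).le

/-- Lists of small numbers. -/
theorem SB.nats {f : ∀ I, ι I → List ℕ} (h : VB fun I i => (f I i).length) {B : EndOfLine → ℕ}
    (hB : QLog B) (h' : ∀ I i, ∀ x ∈ f I i, x < 2 ^ B I) : SB f :=
  SB.list h hB fun I i x hx => esize_nat_le (h' I i x hx)

/-- Lists made of the values of `g` at the elements of a short list. -/
theorem SB.map {γ : EndOfLine → Type*} {f : ∀ I, ι I → List (γ I)}
    (hl : VB fun I i => (f I i).length) {g : ∀ I, ι I → γ I → α}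
    (hg : SB fun I (p : ι I × γ I) => g I p.1 p.2) :
    SB fun I i => (f I i).map (g I i) := by
  obtain ⟨B, hB, h⟩ := hg
  refine SB.list (hl.mono fun I i => (List.length_map _).le) hB fun I i x hx => ?_
  obtain ⟨y, -, rfl⟩ := List.mem_map.1 hx
  exact h I (i, y)

end

/-! ### The length of the blocks -/

theorem pt_lg : PT ∅ lg := PT_log (PT.size PT.id)

theorem pbd_lg : PBd lg :=
  (PBd.esize (α := EndOfLine)).mono fun I => H838.lg_le_len I

/-- **The length of the blocks.** A number in polynomial time, polylogarithmic, at least `3`, at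
least the length of the code words of the blocks, and at least the length of the public words. -/
theorem exists_m {ι : EndOfLine → Type*} {α : Type*} [Enc α] {n sl : EndOfLine → ℕ}
    (hn : QLog n) (hsl : QLog sl) {pub : ∀ I, ι I → α} (hp : SB pub) :
    ∃ m : EndOfLine → ℕ, PT ∅ m ∧ QLog m ∧ (∀ I, 3 ≤ m I) ∧
      (∀ I, W.H912.blen (n I) (sl I) ≤ m I) ∧ ∀ I i, 2 * esize (pub I i) + 1 ≤ m I := by
  obtain ⟨B, hB, hB'⟩ := hp
  have h1 : QLog fun I => (W.H912.blen (n I) (sl I) + (2 * B I + 1)) + 3 := by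
    unfold W.H912.blen
    exact (((QLog.const 2).add ((QLog.const 2).mul (hn.mul (hsl.add (QLog.const 1))))).add
      (((QLog.const 2).mul hB).add (QLog.const 1))).add (QLog.const 3)
  obtain ⟨k, hk⟩ := h1
  have h2 : ∀ I, (W.H912.blen (n I) (sl I) + (2 * B I + 1)) + 3 ≤ k * lg I ^ k := hk
  refine ⟨fun I => k * lg I ^ k, PT.mul (PT.const k) (PT.powConst pt_lg k),
    (QLog.const k).mul (H838.qlog_lg.pow k), fun I => ?_, fun I => ?_, fun I i => ?_⟩
  · exact (Nat.le_add_left _ _).trans (h2 I)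
  · exact ((Nat.le_add_right _ _).trans (Nat.le_add_right _ _)).trans (h2 I)
  · refine le_trans ?_ (h2 I)
    have := hB' I i
    omega

end Vale.Agent.P330.H847
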